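import Vale.Agent.P321.AllQ.Rate
import Vale.Agent.P321.AllQ.DriftThm
import Vale.Agent.P321.AllQ.Stage
import Vale.Agent.P321.AllQ.Base

namespace Vale.Agent.Results.P321.SuperPolynomialAll

open Vale.Agent.P321

/-- At every fixed deletion probability in `(0,1)`, trace reconstruction needs more than any fixed
power of `n` traces; indeed at least `n^(c log log n)`. -/
theorem result : ∀ q : ℝ, 0 < q → q < 1 →
    (∀ R : ℕ, ∃ N : ℕ, ∀ n ≥ N, (n : ℝ) ^ R ≤ (sampleComplexity q n : ℝ)) ∧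
    ∃ c : ℝ, 0 < c ∧ ∃ N : ℕ, ∀ n ≥ N,
      (n : ℝ) ^ (c * Real.log (Real.log n)) ≤ (sampleComplexity q n : ℝ) :=
  fun q hq0 hq1 => ⟨superpoly_all (stage_allq driftStmt_holds) base_stmt q hq0 hq1,
    rate_of_climb (climb (stage_allq driftStmt_holds) base_stmt) q hq0 hq1⟩

end Vale.Agent.Results.P321.SuperPolynomialAll
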